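import Mathlib

/-!
P302 (bin packing, helper56's chain construction): the generic level lemma.

Items are indexed by a type with an integer deviation `x`.  A triple fits when its deviations
sum to at most zero.  `Deficient x S c` says that every family of pairwise disjoint fitting
triples inside `S` leaves at least `c + 3` items of `S` uncovered.

`level_step`: if `S` consists of `B` bins, `2 B + 1` objects, two absorbers `P, Q` and a lower
part `Low`, if every fitting triple containing an object contains a bin or is `{P, Q, o}`, if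
at most `Pmax = B - c` disjoint fitting triples can contain two objects each, and if `Low` is
deficient with the same `c` (and `|Low| = c` modulo 3), then `S` is deficient with the same `c`.
-/

namespace Vale.Agent.H36.BP

open Finset

set_option linter.unusedSectionVars false

variable {ι : Type*} [DecidableEq ι]

/-- A family of pairwise disjoint fitting triples inside `S`. -/
structure IsTripleFamily (x : ι → ℤ) (S : Finset ι) (F : Finset (Finset ι)) : Prop where
  sub : ∀ T ∈ F, T ⊆ S
  card : ∀ T ∈ F, T.card = 3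
  fit : ∀ T ∈ F, ∑ i ∈ T, x i ≤ 0
  disj : ∀ T ∈ F, ∀ T' ∈ F, T ≠ T' → Disjoint T T'

/-- Every family of pairwise disjoint fitting triples inside `S` leaves at least `c + 3` items
of `S` uncovered. -/
def Deficient (x : ι → ℤ) (S : Finset ι) (c : ℕ) : Prop :=
  ∀ F : Finset (Finset ι), IsTripleFamily x S F → 3 * F.card + c + 3 ≤ S.card

theorem IsTripleFamily.mono {x : ι → ℤ} {S : Finset ι} {F G : Finset (Finset ι)}
    (h : IsTripleFamily x S F) (hG : G ⊆ F) : IsTripleFamily x S G :=
  ⟨fun T hT => h.sub T (hG hT), fun T hT => h.card T (hG hT), fun T hT => h.fit T (hG hT),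
    fun T hT T' hT' hne => h.disj T (hG hT) T' (hG hT') hne⟩

/-- The pieces `T ∩ A` of a disjoint family are pairwise disjoint, so their sizes add up to at
most `|A|`. -/
theorem sum_card_inter_le {x : ι → ℤ} {S : Finset ι} {F : Finset (Finset ι)}
    (h : IsTripleFamily x S F) (A : Finset ι) : ∑ T ∈ F, (T ∩ A).card ≤ A.card := by
  have hd : ∀ T ∈ F, ∀ T' ∈ F, T ≠ T' → Disjoint (T ∩ A) (T' ∩ A) := by
    intro T hT T' hT' hne
    exact (h.disj T hT T' hT' hne).mono inter_subset_left inter_subset_left
  rw [← Finset.card_biUnion hd]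
  apply Finset.card_le_card
  intro i hi
  rw [Finset.mem_biUnion] at hi
  obtain ⟨T, -, hiT⟩ := hi
  exact (Finset.mem_inter.1 hiT).2

/-- The total size of a triple family. -/
theorem sum_card_eq {x : ι → ℤ} {S : Finset ι} {F : Finset (Finset ι)}
    (h : IsTripleFamily x S F) : ∑ T ∈ F, T.card = 3 * F.card := by
  rw [Finset.sum_congr rfl (fun T hT => h.card T hT), Finset.sum_const, smul_eq_mul, mul_comm]

theorem level_step (x : ι → ℤ) (S Bins Objs Low : Finset ι) (P Q : ι) (c Pmax : ℕ)
    (hBO : Disjoint Bins Objs) (hObjsS : Objs ⊆ S) (hPL : P ∉ Low)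
    (hmem : ∀ i ∈ S, i ∈ Bins ∨ i ∈ Objs ∨ i = P ∨ i = Q ∨ i ∈ Low)
    (hScard : S.card = 3 * Bins.card + 3 + Low.card)
    (hObjs : Objs.card = 2 * Bins.card + 1) (hc : Pmax + c = Bins.card)
    (hmod : Low.card % 3 = c % 3)
    (hR1 : ∀ T : Finset ι, T ⊆ S → T.card = 3 → ∑ i ∈ T, x i ≤ 0 → ∀ o ∈ T, o ∈ Objs →
      (∃ b ∈ T, b ∈ Bins) ∨ T = {P, Q, o})
    (hPmax : ∀ F : Finset (Finset ι), IsTripleFamily x S F →
      (∀ T ∈ F, (T ∩ Objs).card = 2) → F.card ≤ Pmax)
    (hLow : Deficient x Low c) :
    Deficient x S c := by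
  intro F hF
  by_cases ha : ∃ T ∈ F, ∃ o ∈ Objs, T = {P, Q, o}
  · -- one triple is `{P, Q, o}`
    obtain ⟨T0, hT0, o0, ho0, rfl⟩ := ha
    set F1 := F.filter (fun T => T ⊆ Low) with hF1
    set F2 := F.filter (fun T => ¬ T ⊆ Low ∧ T ≠ {P, Q, o0}) with hF2
    have hP0 : P ∈ ({P, Q, o0} : Finset ι) := by simp
    have hQ0 : Q ∈ ({P, Q, o0} : Finset ι) := by simp
    have hT0Low : ¬ ({P, Q, o0} : Finset ι) ⊆ Low := fun hsub => hPL (hsub hP0)
    -- decomposition of the family
    have hsplit : F.card ≤ 1 + F1.card + F2.card := by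
      have hsub : F ⊆ ({({P, Q, o0} : Finset ι)} ∪ F1) ∪ F2 := by
        intro T hT
        by_cases h1 : T ⊆ Low
        · exact mem_union_left _ (mem_union_right _ (mem_filter.2 ⟨hT, h1⟩))
        · by_cases h2 : T = {P, Q, o0}
          · exact mem_union_left _ (mem_union_left _ (mem_singleton.2 h2))
          · exact mem_union_right _ (mem_filter.2 ⟨hT, h1, h2⟩)
      calc F.card ≤ (({({P, Q, o0} : Finset ι)} ∪ F1) ∪ F2).card := card_le_card hsub
        _ ≤ ({({P, Q, o0} : Finset ι)} ∪ F1).card + F2.card := card_union_le _ _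
        _ ≤ (({({P, Q, o0} : Finset ι)} : Finset (Finset ι)).card + F1.card) + F2.card :=
            Nat.add_le_add_right (card_union_le _ _) _
        _ = 1 + F1.card + F2.card := by rw [card_singleton]
    -- the lower-only triples
    have hF1fam : IsTripleFamily x Low F1 :=
      ⟨fun T hT => (mem_filter.1 hT).2, fun T hT => hF.card T (mem_filter.1 hT).1,
        fun T hT => hF.fit T (mem_filter.1 hT).1,
        fun T hT T' hT' hne => hF.disj T (mem_filter.1 hT).1 T' (mem_filter.1 hT').1 hne⟩
    have h1 := hLow F1 hF1fam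
    -- every other triple contains a bin
    have hbin : ∀ T ∈ F2, 1 ≤ (T ∩ Bins).card := by
      intro T hT
      obtain ⟨hTF, hnl, hne⟩ := mem_filter.1 hT
      have hdis := hF.disj T hTF _ hT0 hne
      obtain ⟨i, hiT, hiL⟩ := Finset.not_subset.1 hnl
      have hb : ∃ b ∈ T, b ∈ Bins := by
        rcases hmem i (hF.sub T hTF hiT) with h | h | h | h | h
        · exact ⟨i, hiT, h⟩
        · rcases hR1 T (hF.sub T hTF) (hF.card T hTF) (hF.fit T hTF) i hiT h with h' | h'
          · exact h'
          · exfalso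
            have hPT : P ∈ T := by rw [h']; simp
            exact (Finset.disjoint_left.1 hdis hPT) hP0
        · exfalso
          subst h
          exact (Finset.disjoint_left.1 hdis hiT) hP0
        · exfalso
          subst h
          exact (Finset.disjoint_left.1 hdis hiT) hQ0
        · exact absurd h hiL
      obtain ⟨b, hbT, hbB⟩ := hb
      exact Finset.card_pos.2 ⟨b, mem_inter.2 ⟨hbT, hbB⟩⟩
    have h2 : F2.card ≤ Bins.card := by
      have hF2fam : IsTripleFamily x S F2 := hF.mono (filter_subset _ _)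
      calc F2.card = ∑ T ∈ F2, 1 := by simp
        _ ≤ ∑ T ∈ F2, (T ∩ Bins).card := Finset.sum_le_sum hbin
        _ ≤ Bins.card := sum_card_inter_le hF2fam Bins
    omega
  · -- no triple of the form `{P, Q, o}`: every object sits with a bin
    have ha' : ∀ T ∈ F, ∀ o ∈ T, o ∈ Objs → ∃ b ∈ T, b ∈ Bins := by
      intro T hT o hoT ho
      rcases hR1 T (hF.sub T hT) (hF.card T hT) (hF.fit T hT) o hoT ho with h | h
      · exact h
      · exact absurd ⟨T, hT, o, ho, h⟩ ha
    set G := F.filter (fun T => (T ∩ Objs).card = 2) with hG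
    have hGle : G.card ≤ Pmax :=
      hPmax G (hF.mono (filter_subset _ _)) (fun T hT => (mem_filter.1 hT).2)
    -- per triple: objects ≤ bins + [two objects]
    have hper : ∀ T ∈ F, (T ∩ Objs).card ≤ (T ∩ Bins).card +
        (if (T ∩ Objs).card = 2 then 1 else 0) := by
      intro T hT
      have hdisj : Disjoint (T ∩ Bins) (T ∩ Objs) :=
        hBO.mono inter_subset_right inter_subset_right
      have hle : (T ∩ Bins).card + (T ∩ Objs).card ≤ 3 := by
        rw [← Finset.card_union_of_disjoint hdisj, ← hF.card T hT]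
        exact card_le_card (union_subset inter_subset_left inter_subset_left)
      by_cases h0 : (T ∩ Objs).card = 0
      · rw [h0]; exact Nat.zero_le _
      · obtain ⟨o, ho⟩ := Finset.card_pos.1 (Nat.pos_of_ne_zero h0)
        obtain ⟨b, hbT, hbB⟩ := ha' T hT o (mem_inter.1 ho).1 (mem_inter.1 ho).2
        have hb1 : 1 ≤ (T ∩ Bins).card := Finset.card_pos.2 ⟨b, mem_inter.2 ⟨hbT, hbB⟩⟩
        split_ifs with h2
        · omega
        · omega
    have hsumO : ∑ T ∈ F, (T ∩ Objs).card ≤ Bins.card + Pmax := by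
      calc ∑ T ∈ F, (T ∩ Objs).card
          ≤ ∑ T ∈ F, ((T ∩ Bins).card + (if (T ∩ Objs).card = 2 then 1 else 0)) :=
            Finset.sum_le_sum hper
        _ = ∑ T ∈ F, (T ∩ Bins).card + ∑ T ∈ F, (if (T ∩ Objs).card = 2 then 1 else 0) :=
            Finset.sum_add_distrib
        _ = ∑ T ∈ F, (T ∩ Bins).card + G.card := by
            rw [hG, Finset.card_filter]
        _ ≤ Bins.card + Pmax := Nat.add_le_add (sum_card_inter_le hF Bins) hGle
    -- the part of the triples outside the objects
    have hsumR : ∑ T ∈ F, (T ∩ (S \ Objs)).card ≤ (S \ Objs).card := sum_card_inter_le hF _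
    have hsdiff : (S \ Objs).card = S.card - Objs.card := Finset.card_sdiff_of_subset hObjsS
    have hOle : Objs.card ≤ S.card := card_le_card hObjsS
    have hTsplit : ∀ T ∈ F, T.card = (T ∩ Objs).card + (T ∩ (S \ Objs)).card := by
      intro T hT
      have hd : Disjoint (T ∩ Objs) (T ∩ (S \ Objs)) := by
        rw [Finset.disjoint_left]
        intro i hi hi'
        exact (mem_sdiff.1 (mem_inter.1 hi').2).2 (mem_inter.1 hi).2
      rw [← Finset.card_union_of_disjoint hd]
      congr 1
      ext i
      constructor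
      · intro hi
        by_cases hio : i ∈ Objs
        · exact mem_union_left _ (mem_inter.2 ⟨hi, hio⟩)
        · exact mem_union_right _ (mem_inter.2 ⟨hi, mem_sdiff.2 ⟨hF.sub T hT hi, hio⟩⟩)
      · intro hi
        rcases mem_union.1 hi with h | h
        · exact (mem_inter.1 h).1
        · exact (mem_inter.1 h).1
    have htot : 3 * F.card = ∑ T ∈ F, (T ∩ Objs).card + ∑ T ∈ F, (T ∩ (S \ Objs)).card := by
      rw [← sum_card_eq hF, ← Finset.sum_add_distrib]
      exact Finset.sum_congr rfl hTsplit
    omega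

end Vale.Agent.H36.BP
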